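import Vale.Agent.P011.H280.Rl.Gen
import Vale.Agent.P011.H974.Rl.Inert
import Vale.Agent.P011.H327.Star.Lim
import Vale.Agent.P011.H450.R.Cjg
import Vale.Agent.P011.H261.Rl.Top

/-!
The transport of the generation by exponentials from the standard model to a non-real embedding.
-/

open NormedSpace Filter Topology NumberField

namespace Vale.Agent.P011.H132.Rl

open Vale.Agent.P011.MPQ Vale.Agent.P011.D4 Vale.Agent.P011.D4.Oct Vale.Agent.P011.E6
open Vale.Agent.P011.E6.Alb Vale.Agent.P011.H261.Rl Vale.Agent.P011.H44.Rl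
open Vale.Agent.P011.E6H Vale.Agent.P011.H280.Rl
open scoped ComplexConjugate

/-- The theorem in the standard model. -/
def ThF : Prop := ∀ J f : RV, J * J = 1 → IsU J → f ∈ GJ J → Con J f

section tran

variable {a b c : ℂˣ}

/-- The transport of the operators along an isomorphism. -/
noncomputable def th (S : Alb a b c ≃ₗ[ℂ] VC) : RV →+* R a b c where
  toFun X := (S.symm.toContinuousLinearEquiv : VC →L[ℂ] Alb a b c).comp
    (X.comp (S.toContinuousLinearEquiv : Alb a b c →L[ℂ] VC))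
  map_one' := by
    apply ContinuousLinearMap.ext
    intro x
    exact S.symm_apply_apply x
  map_mul' X Y := by
    apply ContinuousLinearMap.ext
    intro x
    change S.symm (X (Y (S x))) = S.symm (X (S (S.symm (Y (S x)))))
    rw [S.apply_symm_apply]
  map_zero' := by
    apply ContinuousLinearMap.ext
    intro x
    exact map_zero S.symm
  map_add' X Y := by
    apply ContinuousLinearMap.ext
    intro x
    exact map_add S.symm _ _

theorem th_apply (S : Alb a b c ≃ₗ[ℂ] VC) (X : RV) (x : Alb a b c) :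
    th S X x = S.symm (X (S x)) := rfl

theorem S_th (S : Alb a b c ≃ₗ[ℂ] VC) (X : RV) (x : Alb a b c) : S (th S X x) = X (S x) := by
  rw [th_apply, S.apply_symm_apply]

theorem continuous_th (S : Alb a b c ≃ₗ[ℂ] VC) : Continuous (th S) :=
  continuous_const.clm_comp (continuous_id.clm_comp continuous_const)

theorem th_exp (S : Alb a b c ≃ₗ[ℂ] VC) (X : RV) : th S (exp X) = exp (th S X) := by
  let _ : NormedAlgebra ℚ RV := NormedAlgebra.restrictScalars ℚ ℂ _
  let _ : NormedAlgebra ℚ (R a b c) := NormedAlgebra.restrictScalars ℚ ℂ _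
  exact map_exp (th S) (continuous_th S) X

/-- The transport of an operator to the standard model. -/
noncomputable def ht (S : Alb a b c ≃ₗ[ℂ] VC) (f : R a b c) : RV :=
  (S.toContinuousLinearEquiv : Alb a b c →L[ℂ] VC).comp
    (f.comp (S.symm.toContinuousLinearEquiv : VC →L[ℂ] Alb a b c))

theorem ht_apply (S : Alb a b c ≃ₗ[ℂ] VC) (f : R a b c) (x : VC) :
    ht S f x = S (f (S.symm x)) := rfl

theorem ht_S (S : Alb a b c ≃ₗ[ℂ] VC) (f : R a b c) (x : Alb a b c) :
    ht S f (S x) = S (f x) := by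
  rw [ht_apply, S.symm_apply_apply]

theorem th_ht (S : Alb a b c ≃ₗ[ℂ] VC) (f : R a b c) : th S (ht S f) = f := by
  apply ContinuousLinearMap.ext
  intro x
  rw [th_apply, ht_S, S.symm_apply_apply]

theorem ht_mul (S : Alb a b c ≃ₗ[ℂ] VC) {f f' : R a b c} (h : f * f' = 1) :
    ht S f * ht S f' = 1 := by
  apply ContinuousLinearMap.ext
  intro x
  change ht S f (ht S f' x) = x
  rw [ht_apply, ht_apply, S.symm_apply_apply]
  have h1 : f (f' (S.symm x)) = S.symm x := congrArg (fun g : R a b c => g (S.symm x)) h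
  rw [h1, S.apply_symm_apply]

theorem ht_cub {S : Alb a b c ≃ₗ[ℂ] VC} (hS : ∀ x, cub (S x) = cub x) {f : R a b c}
    (hf : f ∈ GN a b c) (x : VC) : cub (ht S f x) = cub x := by
  rw [ht_apply, hS, hf, ← hS, S.apply_symm_apply]

theorem tf_S {S : Alb a b c ≃ₗ[ℂ] VC} (hS : ∀ x, cub (S x) = cub x) (x y : Alb a b c) :
    tf (S y) (adj (S x)) = tf y (adj x) := by
  have h := tf_adj_of_cub (φ := S.toLinearMap) (μ := 1) (fun x => by
    rw [one_mul]
    exact hS x) x y
  rw [one_mul] at h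
  rw [tf_comm, tf_comm y]
  exact h

theorem th_LN {S : Alb a b c ≃ₗ[ℂ] VC} (hS : ∀ x, cub (S x) = cub x) {X : RV}
    (hX : ∀ x, tf (X x) (adj x) = 0) : th S X ∈ LN a b c := by
  intro x
  rw [← tf_S hS, S_th]
  exact hX _

/-- The transport of the generation. -/
theorem mem_of_std (S : Alb a b c ≃ₗ[ℂ] VC) {l : Set (R a b c)} {l' : Set RV}
    (hl : ∀ X ∈ l', th S X ∈ l) {f : R a b c}
    (h : ∀ L' : Set RV, (1 : RV) ∈ L' → (∀ x ∈ L', ∀ y ∈ L', x * y ∈ L') →
      (∀ X ∈ l', exp X ∈ L') → ht S f ∈ L')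
    {L : Set (R a b c)} (h1 : (1 : R a b c) ∈ L) (hm : ∀ x ∈ L, ∀ y ∈ L, x * y ∈ L)
    (hL : ∀ X ∈ l, X ∈ lieOf L) : f ∈ L := by
  have h2 := h {x | th S x ∈ L} (by
    change th S 1 ∈ L
    rw [map_one]
    exact h1) (fun x hx y hy => by
    change th S (x * y) ∈ L
    rw [map_mul]
    exact hm _ hx _ hy) (fun X hX => by
    change th S (exp X) ∈ L
    rw [th_exp]
    have h3 := hL _ (hl X hX) 1
    rwa [one_smul] at h3)
  change th S (ht S f) ∈ L at h2
  rwa [th_ht] at h2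

end tran

section adjoint

/-- The adjoint of an operator that preserves the cubic form, outside the zero set. -/
theorem cub_star_of_ne {F F' : RV} (h : ∀ x, cub (F x) = cub x) (e : F * F' = 1) {u : VC}
    (hu : cub u ≠ 0) : cub (star F u) = cub u := by
  have hw : cub (cj u) ≠ 0 := by
    rw [cub_cj]
    exact (map_ne_zero _).2 hu
  obtain ⟨s, hs⟩ := IsAlgClosed.exists_pow_nat_eq ((cub (cj u))⁻¹) (n := 2) (by norm_num)
  have h1 : adj (s • adj (cj u)) = cj u := by
    rw [adj_smul, adj_adj, smul_smul, hs, inv_mul_cancel₀ hw, one_smul]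
  obtain ⟨y, hy⟩ : ∃ y, y = s • adj (cj u) := ⟨_, rfl⟩
  rw [← hy] at h1
  have h2 : F (F' y) = y := congrArg (fun g : RV => g y) e
  have h3 : star F u = cj (adj (F' y)) := by
    refine ext_inner_right ℂ fun z => ?_
    rw [ContinuousLinearMap.star_eq_adjoint, ContinuousLinearMap.adjoint_inner_left, inner_eq_tf,
      inner_eq_tf, cj_cj, ← h1]
    have h4 := tf_adj_map h (F' y) z
    rw [h2] at h4
    rw [tf_comm, h4, tf_comm]
  have h5 : cub y ^ 2 = cub (cj u) := by rw [← cub_adj, h1]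
  have h6 : cub (F' y) = cub y := by rw [← h, h2]
  rw [h3, cub_cj, cub_adj, h6, h5, cub_cj, Complex.conj_conj]

theorem cub_star {F F' : RV} (h : ∀ x, cub (F x) = cub x) (h' : ∀ x, cub (F' x) = cub x)
    (e : F * F' = 1) (e' : F' * F = 1) (u : VC) : cub (star F u) = cub u := by
  by_cases hu : cub u = 0
  · by_contra hn
    rw [hu] at hn
    have h1 := cub_star_of_ne h' e' hn
    have h2 : star F' * star F = 1 := by rw [← star_mul, e, star_one]
    have h3 : star F' (star F u) = u := congrArg (fun g : RV => g u) h2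
    rw [h3, hu] at h1
    exact hn h1.symm
  · exact cub_star_of_ne h e hu

theorem tri_pol : H184.Pol.Tri (fun x y z : VC => tf (cross x y) z) := by
  refine ⟨fun x x' y z => ?_, fun x y y' z => ?_, fun x y z z' => ?_, fun r x y z => ?_,
    fun r x y z => ?_, fun r x y z => ?_⟩
  · beta_reduce
    rw [cross_add_left, tf_add_left]
  · beta_reduce
    rw [cross_add_right, tf_add_left]
  · beta_reduce
    rw [tf_add_right]
  · change tf (cross ((r : ℂ) • x) y) z = _
    rw [cross_smul_left, tf_smul_left]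
    rfl
  · change tf (cross x ((r : ℂ) • y)) z = _
    rw [cross_smul_right, tf_smul_left]
    rfl
  · change tf (cross x y) ((r : ℂ) • z) = _
    rw [tf_smul_right]
    rfl

theorem cub_of_tri {f : RV} (h : ∀ x y z, tf (cross (f x) (f y)) (f z) = tf (cross x y) z)
    (x : VC) : cub (f x) = cub x := by
  have h4 := h x x x
  have h5 : ∀ x : VC, tf (cross x x) x = 6 * cub x := by
    intro x
    rw [Alb.cross_self, tf_smul_left, tf_adj_self]
    ring
  rw [h5, h5] at h4
  exact mul_left_cancel₀ (by norm_num : (6 : ℂ) ≠ 0) h4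

/-- The operators that preserve the cubic form are products of exponentials. -/
theorem con_GN (hF : ThF) {F F' : RV} (h : ∀ x, cub (F x) = cub x) (h' : ∀ x, cub (F' x) = cub x)
    (e : F * F' = 1) (e' : F' * F = 1) (L : Set RV) (h1 : (1 : RV) ∈ L)
    (hm : ∀ x ∈ L, ∀ y ∈ L, x * y ∈ L) (hL : ∀ X ∈ LN (-1 : ℂˣ) (-1 : ℂˣ) (-1 : ℂˣ), exp X ∈ L) :
    F ∈ L := by
  have hu : IsUnit F := ⟨⟨F, F', e, e'⟩, rfl⟩
  obtain ⟨k, S, hk1, hk2, hS, hfk, h2⟩ := H184.Pol.polar F hu
  have hs := cub_star h h' e e'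
  have hP : ∀ x y z : VC, tf (cross ((exp ((2 : ℝ) • S) : RV) x) ((exp ((2 : ℝ) • S) : RV) y))
      ((exp ((2 : ℝ) • S) : RV) z) = tf (cross x y) z := by
    intro x y z
    rw [h2]
    change tf (cross (star F (F x)) (star F (F y))) (star F (F z)) = _
    rw [cross_map hs, cross_map h]
  obtain ⟨ht, hd⟩ := H184.Pol.tri_exp tri_pol hS hS hS two_ne_zero hP
  have hSN : S ∈ LN (-1 : ℂˣ) (-1 : ℂˣ) (-1 : ℂˣ) := fun x =>
    H450.R.tri_diag (X := fun x => S x) hd x
  have hkf : k = F * exp (-S) := by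
    rw [hfk, mul_assoc, H184.Pol.exp_mul_exp_neg, mul_one]
  have hkc : ∀ x, cub (k x) = cub x := by
    refine cub_of_tri fun x y z => ?_
    have h8 := ht (-1) x y z
    rw [neg_one_smul] at h8
    rw [hkf]
    change tf (cross (F ((exp (-S) : RV) x)) (F ((exp (-S) : RV) y))) (F ((exp (-S) : RV) z)) = _
    rw [cross_map h, h8]
  have hki : ∀ x y, inner ℂ (k x) (k y) = inner ℂ x y := by
    intro x y
    rw [← ContinuousLinearMap.adjoint_inner_right, ← ContinuousLinearMap.star_eq_adjoint,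
      ← mul_app, hk1, one_app]
  have hk : Con 1 k := hF 1 k (mul_one 1) ⟨fun x => rfl, fun x y => rfl⟩
    ⟨hkc, fun x y => hki x y⟩
  rw [hfk]
  exact hm _ (hk L h1 hm fun X hX => hL X hX.1) _ (hL S hSN)

end adjoint

section conn

variable {k E : Type} [Field k] [Field E] [CharZero E] [Algebra k E]
variable {ρ σ : E ≃ₐ[k] E} {lam : Eˣ} {g : Fin 3 → Eˣ} {a b c : kˣ}

/-- **The connectedness at an embedding that is not real.** -/
theorem conn_of_thF (hF : ThF) (hg : ∀ i, σ (g i) = g i) {φ : E →+* ℂ} (hφ : ¬ RealE φ) :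
    Conn ρ σ lam g a b c φ := by
  intro L _ h1 hm hL
  rintro _ ⟨f, hf, rfl⟩
  have hGf := H327.Star.lc_mem_Lg (φ := φ) (⟨f, hf⟩ : G3 ρ σ lam g a b c)
  by_cases hi : InertE σ φ
  · have hc : ∀ x : kˣ, conj ((uw φ (up E x) : ℂˣ) : ℂ) = (uw φ (up E x) : ℂˣ) := by
      intro x
      change conj (φ (algebraMap k E x)) = φ (algebraMap k E x)
      rw [← hi, AlgEquiv.commutes]
    have hgc : ∀ i, conj ((gE φ g i : ℂˣ) : ℂ) = (gE φ g i : ℂˣ) := by
      intro i
      change conj (φ (g i)) = φ (g i)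
      rw [← hi, hg]
    obtain ⟨S, J, r, hr, hS, hSJ, hJJ, hJ1, hJ2⟩ := H974.Rl.exists_inert (hc a) (hc b) (hc c) hgc
    have hr' : (r : ℂ) ≠ 0 := Complex.ofReal_ne_zero.2 hr.ne'
    refine mem_of_std S (l := Ll σ g φ a b c) (l' := LJ J) (fun X hX => ?_)
      (hF J _ hJJ ⟨hJ1, hJ2⟩ ⟨ht_cub hS hGf.1, fun x y => ?_⟩) h1 hm hL
    · refine ⟨th_LN hS hX.1, fun _ x y => ?_, fun h => absurd h hφ⟩
      apply mul_left_cancel₀ hr'
      rw [mul_add, ← hSJ, ← hSJ, S_th, S_th, mul_zero, add_comm]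
      exact hX.2 _ _
    · obtain ⟨x, rfl⟩ := S.surjective x
      obtain ⟨y, rfl⟩ := S.surjective y
      rw [ht_S, ht_S, hSJ, hSJ]
      congr 1
      exact hGf.2.1 hi _ _
  · obtain ⟨S, hS⟩ := H974.Rl.exists_std (uw φ (up E a)) (uw φ (up E b)) (uw φ (up E c))
    have hf' : f⁻¹ ∈ G3 ρ σ lam g a b c := inv_mem hf
    have hGf' := H327.Star.lc_mem_Lg (φ := φ) (⟨f⁻¹, hf'⟩ : G3 ρ σ lam g a b c)
    have e : lc φ f * lc φ f⁻¹ = 1 := by
      have := lc_mul φ (⟨f, hf⟩ : G3 ρ σ lam g a b c) ⟨f⁻¹, hf'⟩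
      rw [← this]
      have h2 : (⟨f, hf⟩ * ⟨f⁻¹, hf'⟩ : G3 ρ σ lam g a b c) = 1 := Subtype.ext (mul_inv_cancel f)
      rw [h2]
      exact lc_one φ
    have e' : lc φ f⁻¹ * lc φ f = 1 := by
      have := lc_mul φ (⟨f⁻¹, hf'⟩ : G3 ρ σ lam g a b c) ⟨f, hf⟩
      rw [← this]
      have h2 : (⟨f⁻¹, hf'⟩ * ⟨f, hf⟩ : G3 ρ σ lam g a b c) = 1 := Subtype.ext (inv_mul_cancel f)
      rw [h2]
      exact lc_one φ
    refine mem_of_std S (l := Ll σ g φ a b c) (l' := LN (-1 : ℂˣ) (-1 : ℂˣ) (-1 : ℂˣ))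
      (fun X hX => ⟨th_LN hS hX, fun h => absurd h hi, fun h => absurd h hφ⟩)
      (con_GN hF (ht_cub hS hGf.1) (ht_cub hS hGf'.1) (ht_mul S e) (ht_mul S e')) h1 hm hL

end conn

/-- In the letters of the assembly. -/
theorem hcn_of_thF (hF : ThF) {k E : Type} [Field k] [NumberField k] [Field E] [NumberField E]
    [Algebra k E] {ρ σ : E ≃ₐ[k] E} {kap a b c : kˣ} {lam : Eˣ} {g : Fin 3 → Eˣ}
    (_ : IsSextic ρ σ kap) (_ : Oct.Division a b c) (h : IsForm ρ σ lam g) (φ : E →+* ℂ)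
    (hφ : ¬ RealE φ) : Conn ρ σ lam g a b c φ :=
  conn_of_thF hF h.σg hφ

end Vale.Agent.P011.H132.Rl
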